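import Vale.Agent.P307.Main

/-!
# Eventual categoricity for relational AECs of bounded Gaifman degree
-/

universe u

open FirstOrder Cardinal
open Vale.Agent.P307

theorem Vale.Agent.Results.P307.BoundedDegree.result :
    ∀ (l : Cardinal.{u}), ℵ₀ ≤ l →
      ∀ (L : Language.{u, u}) [L.IsRelational], L.card ≤ l →
        ∀ K : AEC L, K.HasLS l →
          (∀ (M : Type u) [L.Structure M], K.Mem M →
            ∀ a : M, #{b // GaifmanAdj L M a b} ≤ l) →
          ∀ κ κ' : Cardinal.{u}, 2 ^ l < κ → 2 ^ l < κ' →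
            K.Categorical κ → K.Categorical κ' :=
  fun _ hl _ _ hL K hLS hdeg _ _ hκ hκ' hcat =>
    categorical_transfer K hl hL hLS hdeg hκ hκ' hcat
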